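import Mathlib

/-!
# Greedy unmatched parts of a maximum transversal (P038)

Women `a ∈ W` (with `w a` units) are matched to men `m ∈ P a` (capacity `cap m`);
`g P w cap W` is the value of a minimum cut, `psi P w cap W a` the unmatched part of the woman `a`
in the greedy maximum matching (order of `V`). It is antitone in the capacities.
-/

namespace Vale.Agent.P038.H478

open Finset

noncomputable section

/-- Total weight. -/
def Wt {V : Type*} (f : V → ℝ) (S : Finset V) : ℝ := ∑ v ∈ S, f v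

section basic

variable {V : Type*} [DecidableEq V]

theorem Wt_mono {f : V → ℝ} (hf : ∀ v, 0 ≤ f v) {S T : Finset V} (h : S ⊆ T) :
    Wt f S ≤ Wt f T :=
  Finset.sum_le_sum_of_subset_of_nonneg h fun v _ _ => hf v

theorem Wt_nonneg {f : V → ℝ} (hf : ∀ v, 0 ≤ f v) (S : Finset V) : 0 ≤ Wt f S :=
  Finset.sum_nonneg fun v _ => hf v

theorem Wt_sdiff {f : V → ℝ} {S T : Finset V} (h : T ⊆ S) : Wt f (S \ T) = Wt f S - Wt f T := by
  have := Finset.sum_sdiff (f := f) h
  unfold Wt
  linarith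

theorem Wt_union_inter (f : V → ℝ) (S T : Finset V) :
    Wt f (S ∪ T) + Wt f (S ∩ T) = Wt f S + Wt f T :=
  Finset.sum_union_inter

theorem Wt_insert {f : V → ℝ} {S : Finset V} {a : V} (h : a ∉ S) :
    Wt f (insert a S) = f a + Wt f S :=
  Finset.sum_insert h

theorem Wt_le {f f' : V → ℝ} (h : ∀ v, f v ≤ f' v) (S : Finset V) : Wt f S ≤ Wt f' S :=
  Finset.sum_le_sum fun v _ => h v

/-- The value of the cut `Y`. -/
def val (P : V → Finset V) (w cap : V → ℝ) (W Y : Finset V) : ℝ :=
  Wt w (W \ Y) + Wt cap (Y.biUnion P)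

/-- The value of a minimum cut. -/
def g (P : V → Finset V) (w cap : V → ℝ) (W : Finset V) : ℝ :=
  W.powerset.inf' ⟨∅, Finset.empty_mem_powerset _⟩ (val P w cap W)

variable {P : V → Finset V} {w : V → ℝ}

theorem g_le {cap : V → ℝ} {W Y : Finset V} (h : Y ⊆ W) : g P w cap W ≤ val P w cap W Y :=
  Finset.inf'_le _ (Finset.mem_powerset.2 h)

theorem exists_g (cap : V → ℝ) (W : Finset V) : ∃ Y ⊆ W, g P w cap W = val P w cap W Y := by
  obtain ⟨Y, hY, h⟩ := Finset.exists_mem_eq_inf' (s := W.powerset)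
    ⟨∅, Finset.empty_mem_powerset _⟩ (val P w cap W)
  exact ⟨Y, Finset.mem_powerset.1 hY, h⟩

theorem g_empty (cap : V → ℝ) : g P w cap ∅ = 0 := by
  obtain ⟨Y, hY, h⟩ := exists_g (P := P) (w := w) cap ∅
  rw [h, Finset.subset_empty.1 hY]
  simp [val, Wt]

/-- Increments are antitone in the set of women and monotone in the capacities. -/
theorem g_diff {cap cap' : V → ℝ} (h0 : ∀ m, 0 ≤ cap m) (hc : ∀ m, cap m ≤ cap' m)
    {W W' : Finset V} (hW : W ⊆ W') {a : V} (ha : a ∉ W') :
    g P w cap (insert a W') - g P w cap W' ≤ g P w cap' (insert a W) - g P w cap' W := by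
  obtain ⟨Y1, h1, e1⟩ := exists_g (P := P) (w := w) cap' (insert a W)
  obtain ⟨Y2, h2, e2⟩ := exists_g (P := P) (w := w) cap W'
  have haW : a ∉ W := fun h => ha (hW h)
  have haY2 : a ∉ Y2 := fun h => ha (h2 h)
  have s1 : Y1 ∪ Y2 ⊆ insert a W' :=
    Finset.union_subset (h1.trans (Finset.insert_subset_insert _ hW))
      (h2.trans (Finset.subset_insert _ _))
  have s2 : Y1 ∩ Y2 ⊆ W := by
    intro u hu
    obtain ⟨hu1, hu2⟩ := Finset.mem_inter.1 hu
    rcases Finset.mem_insert.1 (h1 hu1) with rfl | h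
    · exact absurd hu2 haY2
    · exact h
  have i1 := g_le (P := P) (w := w) (cap := cap) s1
  have i2 := g_le (P := P) (w := w) (cap := cap') s2
  rw [e1, e2]
  unfold val at *
  rw [Wt_sdiff s1, Wt_insert ha] at i1
  rw [Wt_sdiff s2] at i2
  rw [Wt_sdiff h1, Wt_insert haW, Wt_sdiff h2]
  have u1 := Wt_union_inter w Y1 Y2
  set A := Y1.biUnion P with hA
  set B := Y2.biUnion P with hB
  have e3 : (Y1 ∪ Y2).biUnion P = A ∪ B := by rw [hA, hB, Finset.union_biUnion]
  have e4 : (Y1 ∩ Y2).biUnion P ⊆ A ∩ B := by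
    intro m hm
    obtain ⟨y, hy, hm⟩ := Finset.mem_biUnion.1 hm
    obtain ⟨hy1, hy2⟩ := Finset.mem_inter.1 hy
    exact Finset.mem_inter.2 ⟨Finset.mem_biUnion.2 ⟨y, hy1, hm⟩,
      Finset.mem_biUnion.2 ⟨y, hy2, hm⟩⟩
  have h0' : ∀ m, 0 ≤ cap' m := fun m => (h0 m).trans (hc m)
  have c1 : Wt cap' ((Y1 ∩ Y2).biUnion P) ≤ Wt cap' (A ∩ B) := Wt_mono h0' e4
  have c2 := Wt_union_inter cap A B
  have c3 : Wt cap (A \ B) = Wt cap A - Wt cap (A ∩ B) := by
    rw [← Wt_sdiff Finset.inter_subset_left, Finset.sdiff_inter_self_left]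
  have c4 : Wt cap' (A \ B) = Wt cap' A - Wt cap' (A ∩ B) := by
    rw [← Wt_sdiff Finset.inter_subset_left, Finset.sdiff_inter_self_left]
  have c5 := Wt_le hc (A \ B)
  rw [e3] at i1
  linarith

theorem g_insert_le (hw : ∀ v, 0 ≤ w v) (cap : V → ℝ) (W : Finset V) (a : V) :
    g P w cap (insert a W) ≤ g P w cap W + w a := by
  obtain ⟨Y, hY, e⟩ := exists_g (P := P) (w := w) cap W
  have h1 := g_le (P := P) (w := w) (cap := cap) (hY.trans (Finset.subset_insert a W))
  rw [e]
  unfold val at *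
  by_cases ha : a ∈ W
  · rw [Finset.insert_eq_of_mem ha] at h1 ⊢
    have := hw a
    linarith
  · rw [Wt_sdiff (hY.trans (Finset.subset_insert a W)), Wt_insert ha] at h1
    rw [Wt_sdiff hY]
    linarith

theorem g_mono (hw : ∀ v, 0 ≤ w v) {cap : V → ℝ} (h0 : ∀ m, 0 ≤ cap m) {W W' : Finset V}
    (h : W ⊆ W') : g P w cap W ≤ g P w cap W' := by
  obtain ⟨Y, hY, e⟩ := exists_g (P := P) (w := w) cap W'
  have h1 := g_le (P := P) (w := w) (cap := cap) (W := W) (Y := Y ∩ W) Finset.inter_subset_right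
  rw [e]
  refine h1.trans ?_
  unfold val
  refine add_le_add (Wt_mono hw ?_) (Wt_mono h0 ?_)
  · intro u hu
    obtain ⟨hu1, hu2⟩ := Finset.mem_sdiff.1 hu
    exact Finset.mem_sdiff.2 ⟨h hu1, fun h3 => hu2 (Finset.mem_inter.2 ⟨h3, hu1⟩)⟩
  · exact Finset.biUnion_subset_biUnion_of_subset_left _ Finset.inter_subset_left

/-- Women with a man of huge capacity can be deleted. -/
theorem g_del (hw : ∀ v, 0 ≤ w v) {cap : V → ℝ} (h0 : ∀ m, 0 ≤ cap m) (W N : Finset V)
    (hN : ∀ b ∈ N, ∃ m ∈ P b, Wt w W ≤ cap m) :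
    g P w cap W = g P w cap (W \ N) + Wt w (W ∩ N) := by
  have hsplit : Wt w (W \ N) + Wt w (W ∩ N) = Wt w W := by
    rw [← Finset.sdiff_inter_self_left, Wt_sdiff Finset.inter_subset_left]
    ring
  apply le_antisymm
  · obtain ⟨Y, hY, e⟩ := exists_g (P := P) (w := w) cap (W \ N)
    have hYW : Y ⊆ W := hY.trans Finset.sdiff_subset
    have h1 := g_le (P := P) (w := w) (cap := cap) hYW
    rw [e]
    unfold val at *
    rw [Wt_sdiff hYW] at h1
    rw [Wt_sdiff hY]
    linarith
  · obtain ⟨Y, hY, e⟩ := exists_g (P := P) (w := w) cap W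
    rw [e]
    by_cases hYN : ∃ b ∈ Y, b ∈ N
    · obtain ⟨b, hbY, hbN⟩ := hYN
      obtain ⟨m, hm, hcm⟩ := hN b hbN
      have h1 := g_le (P := P) (w := w) (cap := cap) (W := W \ N) (Y := ∅)
        (Finset.empty_subset _)
      have h2 : Wt cap {m} ≤ Wt cap (Y.biUnion P) :=
        Wt_mono h0 (Finset.singleton_subset_iff.2 (Finset.mem_biUnion.2 ⟨b, hbY, hm⟩))
      have h3 : Wt cap {m} = cap m := Finset.sum_singleton _ _
      have h4 := Wt_nonneg hw (W \ Y)
      unfold val at *
      rw [Finset.sdiff_empty, Finset.biUnion_empty] at h1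
      have h5 : Wt cap (∅ : Finset V) = 0 := Finset.sum_empty
      linarith
    · push Not at hYN
      have hYs : Y ⊆ W \ N := fun u hu => Finset.mem_sdiff.2 ⟨hY hu, hYN u hu⟩
      have h1 := g_le (P := P) (w := w) (cap := cap) hYs
      unfold val at *
      rw [Wt_sdiff hYs] at h1
      rw [Wt_sdiff hY]
      linarith

/-- A woman all of whose men have capacity `0` does not increase the cut. -/
theorem g_insert_zero (hw : ∀ v, 0 ≤ w v) {cap : V → ℝ} (h0 : ∀ m, 0 ≤ cap m) (W : Finset V)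
    (a : V) (ha : ∀ m ∈ P a, cap m = 0) : g P w cap (insert a W) ≤ g P w cap W := by
  obtain ⟨Y, hY, e⟩ := exists_g (P := P) (w := w) cap W
  have h1 := g_le (P := P) (w := w) (cap := cap) (Finset.insert_subset_insert a hY)
  rw [e]
  refine h1.trans ?_
  unfold val
  refine add_le_add (Wt_mono hw ?_) ?_
  · intro u hu
    obtain ⟨hu1, hu2⟩ := Finset.mem_sdiff.1 hu
    rw [Finset.mem_insert, not_or] at hu2
    rcases Finset.mem_insert.1 hu1 with h | h
    · exact absurd h hu2.1
    · exact Finset.mem_sdiff.2 ⟨h, hu2.2⟩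
  · rw [Finset.biUnion_insert]
    have h2 := Wt_union_inter cap (P a) (Y.biUnion P)
    have h3 := Wt_nonneg h0 (P a ∩ Y.biUnion P)
    have h4 : Wt cap (P a) = 0 := Finset.sum_eq_zero ha
    linarith

end basic

section order

variable {V : Type*} [LinearOrder V] {P : V → Finset V} {w : V → ℝ}

/-- The matched part of `a`. -/
def mu (P : V → Finset V) (w cap : V → ℝ) (W : Finset V) (a : V) : ℝ :=
  g P w cap (insert a (W.filter (· < a))) - g P w cap (W.filter (· < a))

/-- The unmatched part of `a`. -/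
def psi (P : V → Finset V) (w cap : V → ℝ) (W : Finset V) (a : V) : ℝ :=
  w a - mu P w cap W a

theorem psi_nonneg (hw : ∀ v, 0 ≤ w v) (cap : V → ℝ) (W : Finset V) (a : V) :
    0 ≤ psi P w cap W a := by
  have := g_insert_le (P := P) hw cap (W.filter (· < a)) a
  unfold psi mu
  linarith

theorem psi_le (hw : ∀ v, 0 ≤ w v) {cap : V → ℝ} (h0 : ∀ m, 0 ≤ cap m) (W : Finset V) (a : V) :
    psi P w cap W a ≤ w a := by
  have := g_mono (P := P) hw h0 (Finset.subset_insert a (W.filter (· < a)))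
  unfold psi mu
  linarith

theorem sum_mu (cap : V → ℝ) (W : Finset V) : ∑ a ∈ W, mu P w cap W a = g P w cap W := by
  induction W using Finset.induction_on_max with
  | empty => rw [g_empty, Finset.sum_empty]
  | insert a s hs ih =>
    have has : a ∉ s := fun h => lt_irrefl a (hs a h)
    rw [Finset.sum_insert has]
    have e1 : (insert a s).filter (· < a) = s := by
      ext u
      simp only [Finset.mem_filter, Finset.mem_insert]
      constructor
      · rintro ⟨rfl | h, h2⟩
        · exact absurd h2 (lt_irrefl _)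
        · exact h
      · intro h
        exact ⟨Or.inr h, hs u h⟩
    have e2 : ∑ b ∈ s, mu P w cap (insert a s) b = ∑ b ∈ s, mu P w cap s b := by
      refine Finset.sum_congr rfl fun b hb => ?_
      have e3 : (insert a s).filter (· < b) = s.filter (· < b) := by
        ext u
        simp only [Finset.mem_filter, Finset.mem_insert]
        constructor
        · rintro ⟨rfl | h, h2⟩
          · exact absurd (h2.trans (hs b hb)) (lt_irrefl _)
          · exact ⟨h, h2⟩
        · rintro ⟨h, h2⟩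
          exact ⟨Or.inr h, h2⟩
      unfold mu
      rw [e3]
    rw [e2, ih]
    unfold mu
    rw [e1]
    ring

theorem sum_psi (cap : V → ℝ) (W : Finset V) :
    ∑ a ∈ W, psi P w cap W a = Wt w W - g P w cap W := by
  unfold psi
  rw [Finset.sum_sub_distrib, sum_mu]
  rfl

theorem psi_anti {cap cap' : V → ℝ} (h0 : ∀ m, 0 ≤ cap m) (hc : ∀ m, cap m ≤ cap' m)
    (W : Finset V) (a : V) : psi P w cap' W a ≤ psi P w cap W a := by
  have := g_diff (P := P) (w := w) h0 hc (Finset.Subset.refl (W.filter (· < a))) (a := a)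
    (by simp)
  unfold psi mu
  linarith

theorem psi_zero_of_big (hw : ∀ v, 0 ≤ w v) {cap : V → ℝ} (h0 : ∀ m, 0 ≤ cap m) (W : Finset V)
    (a : V) (T : ℝ) (hT : Wt w (insert a W) ≤ T) (ha : ∃ m ∈ P a, T ≤ cap m) :
    psi P w cap W a = 0 := by
  set F := W.filter (· < a) with hF
  have haF : a ∉ F := by simp [hF]
  obtain ⟨m, hm, hcm⟩ := ha
  have hsub : insert a F ⊆ insert a W := Finset.insert_subset_insert _ (Finset.filter_subset _ _)
  have h1 := g_del (P := P) hw h0 (insert a F) {a} (by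
    intro b hb
    rw [Finset.mem_singleton.1 hb]
    exact ⟨m, hm, ((Wt_mono hw hsub).trans hT).trans hcm⟩)
  have e1 : insert a F \ {a} = F := by
    ext u
    simp only [Finset.mem_sdiff, Finset.mem_insert, Finset.mem_singleton]
    constructor
    · rintro ⟨h | h, h'⟩
      · exact absurd h h'
      · exact h
    · intro h
      exact ⟨Or.inr h, fun h' => haF (h' ▸ h)⟩
  have e2 : insert a F ∩ {a} = {a} := by
    ext u
    simp only [Finset.mem_inter, Finset.mem_insert, Finset.mem_singleton]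
    tauto
  rw [e1, e2] at h1
  have e3 : Wt w {a} = w a := Finset.sum_singleton _ _
  unfold psi mu
  rw [← hF]
  linarith

/-- Deleting the women with a man of huge capacity does not change the other parts. -/
theorem psi_del (hw : ∀ v, 0 ≤ w v) {cap : V → ℝ} (h0 : ∀ m, 0 ≤ cap m) (W N : Finset V)
    (T : ℝ) (a : V) (haN : a ∉ N) (hT : Wt w (insert a W) ≤ T)
    (hN : ∀ b ∈ N, ∃ m ∈ P b, T ≤ cap m) :
    psi P w cap W a = psi P w cap (W \ N) a := by
  set F := W.filter (· < a) with hF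
  have hsub : insert a F ⊆ insert a W := Finset.insert_subset_insert _ (Finset.filter_subset _ _)
  have h1 := g_del (P := P) hw h0 (insert a F) N (by
    intro b hb
    obtain ⟨m, hm, hcm⟩ := hN b hb
    exact ⟨m, hm, ((Wt_mono hw hsub).trans hT).trans hcm⟩)
  have h2 := g_del (P := P) hw h0 F N (by
    intro b hb
    obtain ⟨m, hm, hcm⟩ := hN b hb
    exact ⟨m, hm, ((Wt_mono hw ((Finset.subset_insert a F).trans hsub)).trans hT).trans hcm⟩)
  have e1 : insert a F \ N = insert a (F \ N) := Finset.insert_sdiff_of_notMem _ haN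
  have e2 : insert a F ∩ N = F ∩ N := Finset.insert_inter_of_notMem haN
  have e3 : (W \ N).filter (· < a) = F \ N := by
    ext u
    simp only [hF, Finset.mem_filter, Finset.mem_sdiff]
    tauto
  rw [e1, e2] at h1
  unfold psi mu
  rw [← hF, e3, h1, h2]
  ring

theorem psi_full (hw : ∀ v, 0 ≤ w v) {cap : V → ℝ} (h0 : ∀ m, 0 ≤ cap m) (W : Finset V)
    (a : V) (ha : ∀ m ∈ P a, cap m = 0) : psi P w cap W a = w a := by
  have h1 := g_insert_zero (P := P) hw h0 (W.filter (· < a)) a ha
  have h2 := psi_le (P := P) hw h0 W a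
  refine le_antisymm h2 ?_
  unfold psi mu
  linarith

/-- Unmatched women lie in every minimum cut. -/
theorem mem_of_psi_pos {cap : V → ℝ} (h0 : ∀ m, 0 ≤ cap m) {W Y : Finset V} (hY : Y ⊆ W)
    (e : g P w cap W = val P w cap W Y) {a : V} (ha : a ∈ W) (hp : 0 < psi P w cap W a) :
    a ∈ Y := by
  by_contra haY
  have h1 : Y ⊆ W.erase a := fun u hu =>
    Finset.mem_erase.2 ⟨fun h => haY (h ▸ hu), hY hu⟩
  have h2 := g_le (P := P) (w := w) (cap := cap) h1
  have h3 := g_diff (P := P) (w := w) h0 (fun m => le_refl (cap m))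
    (W := W.filter (· < a)) (W' := W.erase a) (a := a) (by
      intro u hu
      obtain ⟨hu1, hu2⟩ := Finset.mem_filter.1 hu
      exact Finset.mem_erase.2 ⟨hu2.ne, hu1⟩) (Finset.notMem_erase a W)
  rw [Finset.insert_erase ha, e] at h3
  unfold psi mu at hp
  unfold val at h2 h3
  rw [Wt_sdiff h1] at h2
  rw [Wt_sdiff hY] at h3
  have h4 : Wt w W = w a + Wt w (W.erase a) := by
    rw [← Wt_insert (Finset.notMem_erase a W), Finset.insert_erase ha]
  linarith

end order

end

end Vale.Agent.P038.H478
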