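import Mathlib

/-!
# A threshold lemma (P038)
-/

namespace Vale.Agent.P038.H478

open MeasureTheory

theorem int_ind {c t : ℝ} (ht : 0 ≤ t) (htc : t ≤ c) :
    ∫ s in Set.Ioc 0 c, (if s ≤ t then (1 : ℝ) else 0) = t := by
  have e : (fun s : ℝ => if s ≤ t then (1 : ℝ) else 0) = (Set.Iic t).indicator 1 := by
    ext s
    simp [Set.indicator]
  rw [e, integral_indicator_one measurableSet_Iic]
  have e2 : (volume.restrict (Set.Ioc 0 c)).real (Set.Iic t) = volume.real (Set.Ioc 0 t) := by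
    unfold Measure.real
    rw [Measure.restrict_apply measurableSet_Iic]
    congr 2
    ext s
    simp only [Set.mem_inter_iff, Set.mem_Iic, Set.mem_Ioc]
    constructor
    · rintro ⟨h1, h2, -⟩
      exact ⟨h2, h1⟩
    · rintro ⟨h1, h2⟩
      exact ⟨h2, h1, h2.trans htc⟩
  rw [e2, Real.volume_real_Ioc_of_le ht]
  ring

theorem int_ind_integrable (c t : ℝ) :
    IntegrableOn (fun s : ℝ => if s ≤ t then (1 : ℝ) else 0) (Set.Ioc 0 c) := by
  have e : (fun s : ℝ => if s ≤ t then (1 : ℝ) else 0) = (Set.Iic t).indicator (fun _ => 1) := by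
    ext s
    simp [Set.indicator]
  rw [e]
  have h : IntegrableOn (fun _ : ℝ => (1 : ℝ)) (Set.Ioc 0 c) :=
    integrableOn_const (by simp)
  exact h.indicator measurableSet_Iic

theorem exists_threshold {V : Type*} [Fintype V] (v f h : V → ℝ) {c : ℝ} (hc : 0 < c)
    (hf : ∀ x, 0 ≤ f x) (hfc : ∀ x, f x ≤ c) (hh : ∀ x, 0 ≤ h x) (hhc : ∀ x, h x ≤ c) :
    ∃ s, 0 < s ∧ s ≤ c ∧
      c * ∑ x, v x * ((if s ≤ h x then (1 : ℝ) else 0) - (if s ≤ f x then (1 : ℝ) else 0)) ≤
        ∑ x, v x * (h x - f x) := by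
  set φ : ℝ → ℝ := fun s =>
    ∑ x, v x * ((if s ≤ h x then (1 : ℝ) else 0) - (if s ≤ f x then (1 : ℝ) else 0)) with hφ
  have hterm : ∀ x, IntegrableOn (fun s : ℝ =>
      v x * ((if s ≤ h x then (1 : ℝ) else 0) - (if s ≤ f x then (1 : ℝ) else 0)))
      (Set.Ioc 0 c) := fun x =>
    ((int_ind_integrable c (h x)).sub (int_ind_integrable c (f x))).const_mul (v x)
  have hint : IntegrableOn φ (Set.Ioc 0 c) := by
    rw [hφ]
    exact integrable_finsetSum _ fun x _ => hterm x
  have hval : ∫ s in Set.Ioc 0 c, φ s = ∑ x, v x * (h x - f x) := by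
    rw [hφ, integral_finsetSum _ fun x _ => hterm x]
    refine Finset.sum_congr rfl fun x _ => ?_
    rw [integral_const_mul, integral_sub (int_ind_integrable c (h x))
      (int_ind_integrable c (f x)), int_ind (hh x) (hhc x), int_ind (hf x) (hfc x)]
  have hvol : volume (Set.Ioc 0 c) = ENNReal.ofReal c := by
    rw [Real.volume_Ioc, sub_zero]
  obtain ⟨s, hs, hle⟩ := exists_le_setAverage (μ := volume) (s := Set.Ioc 0 c) (f := φ)
    (by rw [hvol]; simpa using hc) (by rw [hvol]; exact ENNReal.ofReal_ne_top) hint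
  refine ⟨s, hs.1, hs.2, ?_⟩
  rw [setAverage_eq, hval, Real.volume_real_Ioc_of_le hc.le, sub_zero, smul_eq_mul] at hle
  have h2 := mul_le_mul_of_nonneg_left hle hc.le
  rw [← mul_assoc, mul_inv_cancel₀ hc.ne', one_mul] at h2
  exact h2

end Vale.Agent.P038.H478
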