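import Vale.Agent.P038.H139.Basic
import Vale.Agent.P038.H478.Grd
import Vale.Agent.P038.H478.Thr

/-!
# The cut theorem (P038)

For families `B`, `C` of sets with `N⁺[a] ⊆ B a`, `N⁺[a] ⊆ C a` and no `x ≠ a` with `x ∈ B a`,
`a ∈ C x`, there are families `X`, `Z` with `a ∈ X a`, `a ∈ Z a`, no `x ≠ a` with
`x ∈ N⁺[X a]`, `a ∈ N⁺[Z x]`, whose total (weighted) outer boundary is at most that of `B`, `C`.
-/

namespace Vale.Agent.P038.H478

open Finset H139

variable {V : Type*} [Fintype V]

/-- The theorem, with an auxiliary order on the vertices. -/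
theorem cut_aux [LinearOrder V] (D : OGraph V) (w : V → ℝ) (hw : ∀ v, 0 < w v)
    (B C : V → Finset V) (hB : ∀ a, cl D {a} ⊆ B a) (hC : ∀ a, cl D {a} ⊆ C a)
    (hBC : ∀ a x, x ∈ B a → a ∈ C x → a = x) :
    ∃ X Z : V → Finset V, (∀ a, a ∈ X a) ∧ (∀ a, a ∈ Z a) ∧
      (∀ a x, x ∈ cl D (X a) → a ∈ cl D (Z x) → a = x) ∧
      ∑ a, w a * (Wt w (cl D (X a)) - Wt w (X a)) +
        ∑ a, w a * (Wt w (cl D (Z a)) - Wt w (Z a)) ≤
      ∑ a, w a * (Wt w (cl D (B a)) - Wt w (B a)) +
        ∑ a, w a * (Wt w (cl D (C a)) - Wt w (C a)) := by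
  classical
  have hw0 : ∀ v, 0 ≤ w v := fun v => (hw v).le
  have hBself : ∀ a, a ∈ B a := fun a => hB a (mem_cl.2 (Or.inl (Finset.mem_singleton_self a)))
  have hCself : ∀ a, a ∈ C a := fun a => hC a (mem_cl.2 (Or.inl (Finset.mem_singleton_self a)))
  have hBarc : ∀ a x, D.arc a x → x ∈ B a := fun a x h =>
    hB a (mem_cl.2 (Or.inr ⟨a, Finset.mem_singleton_self a, h⟩))
  have hCarc : ∀ a x, D.arc a x → x ∈ C a := fun a x h =>
    hC a (mem_cl.2 (Or.inr ⟨a, Finset.mem_singleton_self a, h⟩))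
  set P : V → Finset V := fun a => Finset.univ.filter fun m => m = a ∨ D.arc m a with hP
  have mP : ∀ a m, m ∈ P a ↔ (m = a ∨ D.arc m a) := by
    intro a m
    simp [hP]
  set Tot : ℝ := Wt w Finset.univ with hTot
  have hTot0 : 0 ≤ Tot := Wt_nonneg hw0 _
  have hTotle : ∀ S : Finset V, Wt w S ≤ Tot := fun S => Wt_mono hw0 (Finset.subset_univ S)
  have hwTot : ∀ v, w v ≤ Tot := by
    intro v
    have h1 := hTotle {v}
    have h2 : Wt w {v} = w v := Finset.sum_singleton _ _
    linarith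
  -- capacities
  set capS : V → V → ℝ := fun x m => if x ∈ B m then 0 else if D.arc x m then Tot else w m
    with hcapS
  set capQ : V → V → ℝ := fun x m => if ∃ y, (y = x ∨ D.arc y x) ∧ y ∈ B m then 0 else w m
    with hcapQ
  have capS0 : ∀ x m, 0 ≤ capS x m := by
    intro x m
    simp only [hcapS]
    split_ifs
    · exact le_refl _
    · exact hTot0
    · exact hw0 m
  have capQ0 : ∀ x m, 0 ≤ capQ x m := by
    intro x m
    simp only [hcapQ]
    split_ifs
    · exact le_refl _
    · exact hw0 m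
  have capQS : ∀ x y, (y = x ∨ D.arc y x) → ∀ m, capQ x m ≤ capS y m := by
    intro x y hyx m
    by_cases h : ∃ y, (y = x ∨ D.arc y x) ∧ y ∈ B m
    · have : capQ x m = 0 := by simp only [hcapQ]; rw [if_pos h]
      rw [this]
      exact capS0 y m
    · have e1 : capQ x m = w m := by simp only [hcapQ]; rw [if_neg h]
      have hy : y ∉ B m := fun h2 => h ⟨y, hyx, h2⟩
      rw [e1]
      simp only [hcapS]
      rw [if_neg hy]
      split_ifs
      · exact hwTot m
      · exact le_refl _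
  set ps : V → V → ℝ := fun x a => psi P w (capS x) Finset.univ a with hps
  set Wx : V → Finset V := fun x => Finset.univ.filter fun a => ¬ D.arc x a with hWx
  have mWx : ∀ x a, a ∈ Wx x ↔ ¬ D.arc x a := by
    intro x a
    simp [hWx]
  set pb : V → V → ℝ := fun x a => psi P w (capQ x) (Wx x) a with hpb
  have ps0 : ∀ x a, 0 ≤ ps x a := fun x a => psi_nonneg hw0 _ _ _
  have psw : ∀ x a, ps x a ≤ w a := fun x a => psi_le hw0 (capS0 x) _ _
  -- big men
  have hbig : ∀ x y, (y = x ∨ D.arc y x) → ∀ b, D.arc x b → ∃ m ∈ P b, Tot ≤ capS y m := by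
    intro x y hyx b hxb
    rcases hyx with rfl | hyx
    · refine ⟨b, (mP b b).2 (Or.inl rfl), ?_⟩
      have h1 : y ∉ B b := by
        intro h2
        have h3 := hBC b y h2 (hCarc y b hxb)
        rw [h3] at hxb
        exact D.loopless y hxb
      simp only [hcapS]
      rw [if_neg h1, if_pos hxb]
    · refine ⟨x, (mP b x).2 (Or.inr hxb), ?_⟩
      have h1 : y ∉ B x := by
        intro h2
        have h3 := hBC x y h2 (hCarc y x hyx)
        rw [h3] at hyx
        exact D.loopless y hyx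
      simp only [hcapS]
      rw [if_neg h1, if_pos hyx]
  -- F2
  have F2 : ∀ x y, (y = x ∨ D.arc y x) → ∀ a, D.arc x a → ps y a = 0 := fun x y hyx a hxa =>
    psi_zero_of_big hw0 (capS0 y) _ a Tot (hTotle _) (hbig x y hyx a hxa)
  -- F1
  have F1 : ∀ x y, (y = x ∨ D.arc y x) → ∀ a, a ∈ Wx x → ps y a ≤ pb x a := by
    intro x y hyx a ha
    set N : Finset V := Finset.univ.filter fun b => D.arc x b with hN
    have h1 := psi_del (P := P) hw0 (capS0 y) Finset.univ N Tot a
      (by simp only [hN, Finset.mem_filter, Finset.mem_univ, true_and]; exact (mWx x a).1 ha)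
      (hTotle _) (by
        intro b hb
        simp only [hN, Finset.mem_filter, Finset.mem_univ, true_and] at hb
        exact hbig x y hyx b hb)
    have e1 : Finset.univ \ N = Wx x := by
      ext u
      simp [hN, hWx]
    rw [e1] at h1
    have h2 := psi_anti (P := P) (w := w) (capQ0 x) (capQS x y hyx) (Wx x) a
    simp only [hps, hpb]
    rw [h1]
    exact h2
  -- F3
  have F3 : ∀ a, ps a a = w a := by
    intro a
    refine psi_full hw0 (capS0 a) _ a fun m hm => ?_
    have h1 : a ∈ B m := by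
      rcases (mP a m).1 hm with rfl | h
      · exact hBself m
      · exact hBarc m a h
    simp only [hcapS]
    rw [if_pos h1]
  -- columns
  set Bc : V → Finset V := fun x => Finset.univ.filter fun m => x ∈ B m with hBc
  have mBc : ∀ x m, m ∈ Bc x ↔ x ∈ B m := by
    intro x m
    simp [hBc]
  set Qc : V → Finset V := fun x => Finset.univ.filter fun m => x ∈ cl D (B m) with hQc
  have mQc : ∀ x m, m ∈ Qc x ↔ x ∈ cl D (B m) := by
    intro x m
    simp [hQc]
  -- F4
  have F4 : ∀ x, Wt w (Bc x) + Wt w (C x) ≤ ∑ a, ps x a + Wt w (cl D (C x)) := by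
    intro x
    set E := (C x).erase x with hE
    have hxE : x ∉ cl D E := by
      intro h
      rcases mem_cl.1 h with h | ⟨m, hm, hmx⟩
      · exact Finset.notMem_erase x _ h
      · have h1 := Finset.mem_erase.1 hm
        exact h1.1 (hBC m x (hBarc m x hmx) h1.2)
    set Y := Finset.univ \ cl D E with hY
    have h1 : ∑ a, ps x a = Tot - g P w (capS x) Finset.univ := by
      have := sum_psi (P := P) (w := w) (capS x) Finset.univ
      simpa [hps] using this
    have h2 := g_le (P := P) (w := w) (cap := capS x) (Finset.subset_univ Y)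
    unfold val at h2
    have h3 : Finset.univ \ Y = cl D E := by
      rw [hY]
      simp
    rw [h3] at h2
    have h4 : Y.biUnion P ⊆ Finset.univ \ E := by
      intro m hm
      obtain ⟨a, ha, hma⟩ := Finset.mem_biUnion.1 hm
      refine Finset.mem_sdiff.2 ⟨Finset.mem_univ _, fun hmE => ?_⟩
      have ha' := (Finset.mem_sdiff.1 ha).2
      rcases (mP a m).1 hma with rfl | h
      · exact ha' (mem_cl.2 (Or.inl hmE))
      · exact ha' (mem_cl.2 (Or.inr ⟨m, hmE, h⟩))
    have h5 : Wt (capS x) (Y.biUnion P) ≤ Wt (capS x) (Finset.univ \ E) := Wt_mono (capS0 x) h4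
    have hBE : Bc x ⊆ Finset.univ \ E := by
      intro m hm
      refine Finset.mem_sdiff.2 ⟨Finset.mem_univ _, fun hmE => ?_⟩
      have h6 := Finset.mem_erase.1 hmE
      exact h6.1 (hBC m x ((mBc x m).1 hm) h6.2)
    have h6 : Wt (capS x) (Finset.univ \ E) ≤ Wt w ((Finset.univ \ E) \ Bc x) := by
      have h7 : Wt (capS x) (Finset.univ \ E) =
          Wt (capS x) ((Finset.univ \ E) \ Bc x) + Wt (capS x) (Bc x) := by
        rw [Wt_sdiff hBE]
        ring
      have h8 : Wt (capS x) (Bc x) = 0 := by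
        refine Finset.sum_eq_zero fun m hm => ?_
        simp only [hcapS]
        rw [if_pos ((mBc x m).1 hm)]
      rw [h7, h8, add_zero]
      refine Finset.sum_le_sum fun m hm => ?_
      obtain ⟨hm1, hm2⟩ := Finset.mem_sdiff.1 hm
      have hm3 : x ∉ B m := fun h => hm2 ((mBc x m).2 h)
      have hm4 : ¬ D.arc x m := by
        intro h
        refine (Finset.mem_sdiff.1 hm1).2 (Finset.mem_erase.2 ⟨?_, hCarc x m h⟩)
        rintro rfl
        exact D.loopless m h
      simp only [hcapS]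
      rw [if_neg hm3, if_neg hm4]
    have h7 : Wt w ((Finset.univ \ E) \ Bc x) = Tot - Wt w E - Wt w (Bc x) := by
      rw [Wt_sdiff hBE, Wt_sdiff (Finset.subset_univ E)]
    have h8 : Wt w (C x) = w x + Wt w E := by
      rw [← Wt_insert (Finset.notMem_erase x _), Finset.insert_erase (hCself x)]
    have h9 : w x + Wt w (cl D E) ≤ Wt w (cl D (C x)) := by
      rw [← Wt_insert hxE]
      refine Wt_mono hw0 ?_
      intro u hu
      rcases Finset.mem_insert.1 hu with rfl | hu
      · exact mem_cl.2 (Or.inl (hCself u))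
      · rcases mem_cl.1 hu with h | ⟨y, hy, hyu⟩
        · exact mem_cl.2 (Or.inl (Finset.mem_of_mem_erase h))
        · exact mem_cl.2 (Or.inr ⟨y, Finset.mem_of_mem_erase hy, hyu⟩)
    linarith
  -- optimal cuts
  have hYex : ∀ x, ∃ Y ⊆ Wx x, g P w (capQ x) (Wx x) = val P w (capQ x) (Wx x) Y := fun x =>
    exists_g (capQ x) (Wx x)
  choose Y hYs hYe using hYex
  -- the second family
  set Z : V → Finset V := fun x => Finset.univ \ ((Y x).erase x).biUnion P with hZ
  have mZ : ∀ x m, m ∈ Z x ↔ ∀ b ∈ (Y x).erase x, ¬ (m = b ∨ D.arc m b) := by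
    intro x m
    simp only [hZ, Finset.mem_sdiff, Finset.mem_univ, true_and, Finset.mem_biUnion, mP]
    push Not
    rfl
  have hZself : ∀ x, x ∈ Z x := by
    intro x
    rw [mZ]
    rintro b hb (rfl | h)
    · exact Finset.notMem_erase _ _ hb
    · exact (mWx x b).1 (hYs x (Finset.mem_of_mem_erase hb)) h
  have hclZ : ∀ x m, m ∈ cl D (Z x) → m ∈ Y x → m = x := by
    intro x m hm hmY
    by_contra hne
    have hmE : m ∈ (Y x).erase x := Finset.mem_erase.2 ⟨hne, hmY⟩
    rcases mem_cl.1 hm with h | ⟨z, hz, hzm⟩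
    · exact (mZ x m).1 h m hmE (Or.inl rfl)
    · exact (mZ x z).1 hz m hmE (Or.inr hzm)
  have F5 : ∀ x, Wt w (cl D (Z x) \ Z x) ≤ Wt w (Qc x) - ∑ a ∈ Wx x, pb x a := by
    intro x
    set G := (Y x).biUnion P with hG
    have hYG : Y x ⊆ G := by
      intro u hu
      exact Finset.mem_biUnion.2 ⟨u, hu, (mP u u).2 (Or.inl rfl)⟩
    have h1 : cl D (Z x) \ Z x ⊆ G \ Y x := by
      intro m hm
      obtain ⟨hm1, hm2⟩ := Finset.mem_sdiff.1 hm
      refine Finset.mem_sdiff.2 ⟨?_, ?_⟩
      · rw [mZ] at hm2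
        push Not at hm2
        obtain ⟨b, hb, hmb⟩ := hm2
        exact Finset.mem_biUnion.2 ⟨b, Finset.mem_of_mem_erase hb, (mP b m).2 hmb⟩
      · intro h
        have := hclZ x m hm1 h
        rw [this] at hm2
        exact hm2 (hZself x)
    have h2 := Wt_mono hw0 h1
    rw [Wt_sdiff hYG] at h2
    have h3 : ∑ a ∈ Wx x, pb x a = Wt w (Wx x) - g P w (capQ x) (Wx x) :=
      sum_psi (P := P) (w := w) (capQ x) (Wx x)
    rw [hYe x] at h3
    unfold val at h3
    rw [Wt_sdiff (hYs x)] at h3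
    have h4 : Wt w G ≤ Wt w (Qc x) + Wt (capQ x) G := by
      have h5 : Wt w G = Wt w (G \ (G ∩ Qc x)) + Wt w (G ∩ Qc x) := by
        rw [Wt_sdiff Finset.inter_subset_left]
        ring
      have h6 : Wt w (G ∩ Qc x) ≤ Wt w (Qc x) := Wt_mono hw0 Finset.inter_subset_right
      have h7 : Wt w (G \ (G ∩ Qc x)) ≤ Wt (capQ x) (G \ (G ∩ Qc x)) := by
        refine Finset.sum_le_sum fun m hm => ?_
        obtain ⟨hm1, hm2⟩ := Finset.mem_sdiff.1 hm
        have hm3 : ¬ ∃ y, (y = x ∨ D.arc y x) ∧ y ∈ B m := by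
          rintro ⟨y, hy, hyB⟩
          refine hm2 (Finset.mem_inter.2 ⟨hm1, (mQc x m).2 ?_⟩)
          rcases hy with rfl | hy
          · exact mem_cl.2 (Or.inl hyB)
          · exact mem_cl.2 (Or.inr ⟨y, hyB, hy⟩)
        simp only [hcapQ]
        rw [if_neg hm3]
      have h8 : Wt (capQ x) (G \ (G ∩ Qc x)) ≤ Wt (capQ x) G :=
        Wt_mono (capQ0 x) Finset.sdiff_subset
      linarith
    linarith
  -- the upper envelope
  have hne : ∀ x : V, (Finset.univ.filter fun y => y = x ∨ D.arc y x).Nonempty := fun x =>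
    ⟨x, by simp⟩
  set t : V → V → ℝ := fun x a =>
    (Finset.univ.filter fun y => y = x ∨ D.arc y x).sup' (hne x) fun y => ps y a with ht
  have tle : ∀ x a s, s ≤ t x a ↔ ∃ y, (y = x ∨ D.arc y x) ∧ s ≤ ps y a := by
    intro x a s
    simp only [ht]
    rw [Finset.le_sup'_iff]
    simp
  have tub : ∀ x a c, (∀ y, (y = x ∨ D.arc y x) → ps y a ≤ c) → t x a ≤ c := by
    intro x a c h
    simp only [ht]
    refine Finset.sup'_le _ _ fun y hy => h y ?_
    simpa using hy
  have t0 : ∀ x a, 0 ≤ t x a := fun x a => (tle x a 0).2 ⟨x, Or.inl rfl, ps0 x a⟩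
  have tw : ∀ x a, t x a ≤ w a := fun x a => tub x a _ fun y _ => psw y a
  have F6 : ∀ x, ∑ a, t x a ≤ ∑ a ∈ Wx x, pb x a := by
    intro x
    have h1 : ∑ a, t x a = ∑ a ∈ Wx x, t x a := by
      symm
      refine Finset.sum_subset (Finset.subset_univ _) fun a _ ha => ?_
      have hxa : D.arc x a := by
        by_contra h
        exact ha ((mWx x a).2 h)
      exact le_antisymm (tub x a 0 fun y hy => (F2 x y hy a hxa).le) (t0 x a)
    rw [h1]
    exact Finset.sum_le_sum fun a ha => tub x a _ fun y hy => F1 x y hy a ha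
  -- thresholds
  have hthr : ∀ a, ∃ s, 0 < s ∧ s ≤ w a ∧
      w a * ∑ x, w x * ((if s ≤ t x a then (1 : ℝ) else 0) - (if s ≤ ps x a then (1 : ℝ) else 0))
        ≤ ∑ x, w x * (t x a - ps x a) := fun a =>
    exists_threshold w (fun x => ps x a) (fun x => t x a) (hw a) (fun x => ps0 x a)
      (fun x => psw x a) (fun x => t0 x a) (fun x => tw x a)
  choose s hs0 hsw hs using hthr
  set X : V → Finset V := fun a => Finset.univ.filter fun x => s a ≤ ps x a with hX
  have mX : ∀ a x, x ∈ X a ↔ s a ≤ ps x a := by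
    intro a x
    simp [hX]
  have mclX : ∀ a x, x ∈ cl D (X a) ↔ s a ≤ t x a := by
    intro a x
    rw [tle, mem_cl]
    constructor
    · rintro (h | ⟨y, hy, hyx⟩)
      · exact ⟨x, Or.inl rfl, (mX a x).1 h⟩
      · exact ⟨y, Or.inr hyx, (mX a y).1 hy⟩
    · rintro ⟨y, rfl | hyx, h⟩
      · exact Or.inl ((mX a y).2 h)
      · exact Or.inr ⟨y, (mX a y).2 h, hyx⟩
  have hXself : ∀ a, a ∈ X a := fun a => (mX a a).2 (by rw [F3]; exact hsw a)
  have hcost : ∀ a, w a * Wt w (cl D (X a) \ X a) ≤ ∑ x, w x * (t x a - ps x a) := by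
    intro a
    have h1 : X a ⊆ cl D (X a) := fun x hx => mem_cl.2 (Or.inl hx)
    have h2 : Wt w (cl D (X a) \ X a) =
        ∑ x, w x * ((if s a ≤ t x a then (1 : ℝ) else 0) -
          (if s a ≤ ps x a then (1 : ℝ) else 0)) := by
      rw [Wt_sdiff h1]
      have e1 : Wt w (cl D (X a)) = ∑ x, w x * (if s a ≤ t x a then (1 : ℝ) else 0) := by
        unfold Wt
        simp only [mul_ite, mul_one, mul_zero]
        rw [← Finset.sum_filter]
        refine Finset.sum_congr ?_ fun _ _ => rfl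
        ext x
        simp [mclX]
      have e2 : Wt w (X a) = ∑ x, w x * (if s a ≤ ps x a then (1 : ℝ) else 0) := by
        unfold Wt
        simp only [mul_ite, mul_one, mul_zero]
        rw [← Finset.sum_filter]
      rw [e1, e2, ← Finset.sum_sub_distrib]
      refine Finset.sum_congr rfl fun x _ => ?_
      ring
    rw [h2]
    exact hs a
  refine ⟨X, Z, hXself, hZself, ?_, ?_⟩
  · -- compatibility
    intro a x hx ha
    have h1 : s a ≤ t x a := (mclX a x).1 hx
    obtain ⟨y, hyx, hy⟩ := (tle x a (s a)).1 h1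
    have hpos : 0 < ps y a := lt_of_lt_of_le (hs0 a) hy
    have haW : a ∈ Wx x := by
      rw [mWx]
      intro h
      rw [F2 x y hyx a h] at hpos
      exact lt_irrefl _ hpos
    have hpos2 : 0 < pb x a := lt_of_lt_of_le hpos (F1 x y hyx a haW)
    exact hclZ x a ha (mem_of_psi_pos (capQ0 x) (hYs x) (hYe x) haW hpos2)
  · -- energy
    have h1 : ∑ a, w a * (Wt w (cl D (X a)) - Wt w (X a)) ≤
        ∑ x, w x * (∑ a, t x a - ∑ a, ps x a) := by
      refine (Finset.sum_le_sum fun a _ => ?_).trans (le_of_eq (?_ :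
        ∑ a, ∑ x, w x * (t x a - ps x a) = _))
      · have h2 : X a ⊆ cl D (X a) := fun x hx => mem_cl.2 (Or.inl hx)
        have h3 := hcost a
        rw [Wt_sdiff h2] at h3
        exact h3
      · rw [Finset.sum_comm]
        refine Finset.sum_congr rfl fun x _ => ?_
        rw [← Finset.mul_sum, Finset.sum_sub_distrib]
    have hdiffZ : ∀ a, Wt w (cl D (Z a)) - Wt w (Z a) = Wt w (cl D (Z a) \ Z a) := fun a =>
      (Wt_sdiff fun u hu => mem_cl.2 (Or.inl hu)).symm
    have swap : ∀ S : V → Finset V, ∑ x, w x * Wt w (Finset.univ.filter fun m => x ∈ S m) =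
        ∑ a, w a * Wt w (S a) := by
      intro S
      have e1 : ∀ x, w x * Wt w (Finset.univ.filter fun m => x ∈ S m) =
          ∑ a, w x * (if x ∈ S a then w a else 0) := by
        intro x
        unfold Wt
        rw [Finset.sum_filter, Finset.mul_sum]
      have e2 : ∀ a, w a * Wt w (S a) = ∑ x, w x * (if x ∈ S a then w a else 0) := by
        intro a
        unfold Wt
        rw [Finset.mul_sum]
        simp only [mul_ite, mul_zero]
        rw [← Finset.sum_filter]
        simp only [Finset.filter_mem_eq_inter, Finset.univ_inter]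
        refine Finset.sum_congr rfl fun x _ => mul_comm _ _
      simp only [e1, e2]
      rw [Finset.sum_comm]
    have hsB := swap B
    have hsQ := swap fun m => cl D (B m)
    have h2 : ∑ x, w x * (∑ a, t x a - ∑ a, ps x a) +
        ∑ x, w x * (Wt w (cl D (Z x)) - Wt w (Z x)) ≤
        ∑ x, w x * (Wt w (Qc x) - Wt w (Bc x) + (Wt w (cl D (C x)) - Wt w (C x))) := by
      rw [← Finset.sum_add_distrib]
      refine Finset.sum_le_sum fun x _ => ?_
      rw [← mul_add]
      refine mul_le_mul_of_nonneg_left ?_ (hw0 x)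
      have g1 := F4 x
      have g2 := F5 x
      have g3 := F6 x
      rw [hdiffZ]
      linarith
    have h3 : ∑ x, w x * (Wt w (Qc x) - Wt w (Bc x) + (Wt w (cl D (C x)) - Wt w (C x))) =
        ∑ a, w a * (Wt w (cl D (B a)) - Wt w (B a)) +
          ∑ a, w a * (Wt w (cl D (C a)) - Wt w (C a)) := by
      simp only [mul_add, mul_sub, Finset.sum_add_distrib, Finset.sum_sub_distrib]
      rw [← hsB, ← hsQ]
    linarith

/-- The cut theorem. -/
theorem cut (D : OGraph V) (w : V → ℝ) (hw : ∀ v, 0 < w v)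
    (B C : V → Finset V) (hB : ∀ a, cl D {a} ⊆ B a) (hC : ∀ a, cl D {a} ⊆ C a)
    (hBC : ∀ a x, x ∈ B a → a ∈ C x → a = x) :
    ∃ X Z : V → Finset V, (∀ a, a ∈ X a) ∧ (∀ a, a ∈ Z a) ∧
      (∀ a x, x ∈ cl D (X a) → a ∈ cl D (Z x) → a = x) ∧
      ∑ a, w a * (Wt w (cl D (X a)) - Wt w (X a)) +
        ∑ a, w a * (Wt w (cl D (Z a)) - Wt w (Z a)) ≤
      ∑ a, w a * (Wt w (cl D (B a)) - Wt w (B a)) +
        ∑ a, w a * (Wt w (cl D (C a)) - Wt w (C a)) :=
  @cut_aux V _ (LinearOrder.lift' (Fintype.equivFin V) (Fintype.equivFin V).injective) D w hw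
    B C hB hC hBC

end Vale.Agent.P038.H478
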