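import Vale.Agent.P038.H139.NF
import Vale.Agent.P038.H753.Rew
import Vale.Agent.P038.H478.Cut

/-!
# Seymour's second neighbourhood conjecture (P038)

No normal form exists for `lam < 1`: the cut theorem contradicts (G).
-/

namespace Vale.Agent.P038.H478

open Finset H139

universe u

variable {V : Type u} [Fintype V]

/-- No normal form for `lam < 1`. -/
theorem no_nf {lam : ℝ} (hl : lam < 1) [Nonempty V] {D : OGraph V} {w : V → ℝ}
    (h : NF lam D w) : False := by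
  classical
  have hw : ∀ v, 0 < w v := h.pos
  have hw0 : ∀ v, 0 ≤ w v := fun v => (hw v).le
  have hdiff : ∀ X : Finset V, W w (cl D X \ X) = Wt w (cl D X) - Wt w X := fun X =>
    W_sdiff fun u hu => mem_cl.2 (Or.inl hu)
  have hG : ∀ X : Finset V, Wt w (cl D (cl D X)) - Wt w (cl D X) ≤
      lam * (Wt w (cl D X) - Wt w X) := by
    intro X
    have := H753.g_cl h.toOpt X
    rw [hdiff, hdiff] at this
    exact this
  have hd0 : ∀ X : Finset V, 0 ≤ Wt w (cl D X) - Wt w X := by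
    intro X
    rw [← hdiff]
    exact W_nonneg hw0 _
  -- every vertex has an out-neighbour
  have hout : ∀ v, ∃ x, D.arc v x := by
    intro v
    by_contra hcon
    push Not at hcon
    have h1 := h.one v
    have e1 : N1 D v = ∅ := by
      rw [Finset.eq_empty_iff_forall_notMem]
      intro x hx
      exact hcon x (mem_N1.1 hx)
    have h2 := W_nonneg hw0 (N2 D v)
    unfold Fw at h1
    rw [e1] at h1
    have h3 : W w (∅ : Finset V) = 0 := Finset.sum_empty
    rw [h3] at h1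
    linarith
  -- compatible pairs
  set Cp : (V → Finset V) × (V → Finset V) → Prop := fun q =>
    (∀ a, a ∈ q.1 a) ∧ (∀ a, a ∈ q.2 a) ∧
      (∀ a x, x ∈ cl D (q.1 a) → a ∈ cl D (q.2 x) → a = x) with hCp
  set En : (V → Finset V) × (V → Finset V) → ℝ := fun q =>
    ∑ a, w a * (Wt w (cl D (q.1 a)) - Wt w (q.1 a)) +
      ∑ a, w a * (Wt w (cl D (q.2 a)) - Wt w (q.2 a)) with hEn
  have hne : Cp (fun a => {a}, fun a => {a}) := by
    refine ⟨fun a => Finset.mem_singleton_self a, fun a => Finset.mem_singleton_self a, ?_⟩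
    intro a x hx ha
    by_contra hax
    rcases mem_cl.1 hx with h1 | ⟨y, hy, hyx⟩
    · exact hax (Finset.mem_singleton.1 h1).symm
    · rcases mem_cl.1 ha with h2 | ⟨z, hz, hza⟩
      · exact hax (Finset.mem_singleton.1 h2)
      · rw [Finset.mem_singleton.1 hy] at hyx
        rw [Finset.mem_singleton.1 hz] at hza
        exact D.asymm _ _ hyx hza
  obtain ⟨⟨X, Z⟩, hXZ, hmin⟩ := Set.exists_min_image {q | Cp q} En (Set.toFinite _) ⟨_, hne⟩
  obtain ⟨hX, hZ, hcomp⟩ : Cp (X, Z) := hXZ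
  obtain ⟨X', Z', hX', hZ', hcomp', hle⟩ := cut D w hw (fun a => cl D (X a))
    (fun a => cl D (Z a))
    (fun a => by
      intro x hx
      rcases mem_cl.1 hx with h1 | ⟨y, hy, hyx⟩
      · rw [Finset.mem_singleton.1 h1]
        exact mem_cl.2 (Or.inl (hX a))
      · rw [Finset.mem_singleton.1 hy] at hyx
        exact mem_cl.2 (Or.inr ⟨a, hX a, hyx⟩))
    (fun a => by
      intro x hx
      rcases mem_cl.1 hx with h1 | ⟨y, hy, hyx⟩
      · rw [Finset.mem_singleton.1 h1]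
        exact mem_cl.2 (Or.inl (hZ a))
      · rw [Finset.mem_singleton.1 hy] at hyx
        exact mem_cl.2 (Or.inr ⟨a, hZ a, hyx⟩))
    hcomp
  have h1 : En (X, Z) ≤ En (X', Z') := hmin (X', Z') ⟨hX', hZ', hcomp'⟩
  have hsX : ∑ a, w a * (Wt w (cl D (cl D (X a))) - Wt w (cl D (X a))) ≤
      lam * ∑ a, w a * (Wt w (cl D (X a)) - Wt w (X a)) := by
    rw [Finset.mul_sum]
    refine Finset.sum_le_sum fun a _ => ?_
    have := mul_le_mul_of_nonneg_left (hG (X a)) (hw0 a)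
    linarith
  have hsZ : ∑ a, w a * (Wt w (cl D (cl D (Z a))) - Wt w (cl D (Z a))) ≤
      lam * ∑ a, w a * (Wt w (cl D (Z a)) - Wt w (Z a)) := by
    rw [Finset.mul_sum]
    refine Finset.sum_le_sum fun a _ => ?_
    have := mul_le_mul_of_nonneg_left (hG (Z a)) (hw0 a)
    linarith
  have hEX : 0 ≤ ∑ a, w a * (Wt w (cl D (X a)) - Wt w (X a)) :=
    Finset.sum_nonneg fun a _ => mul_nonneg (hw0 a) (hd0 _)
  have hEZ : 0 ≤ ∑ a, w a * (Wt w (cl D (Z a)) - Wt w (Z a)) :=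
    Finset.sum_nonneg fun a _ => mul_nonneg (hw0 a) (hd0 _)
  have hE : En (X, Z) = ∑ a, w a * (Wt w (cl D (X a)) - Wt w (X a)) +
      ∑ a, w a * (Wt w (cl D (Z a)) - Wt w (Z a)) := rfl
  have hE' : En (X', Z') = ∑ a, w a * (Wt w (cl D (X' a)) - Wt w (X' a)) +
      ∑ a, w a * (Wt w (cl D (Z' a)) - Wt w (Z' a)) := rfl
  have h3 : En (X, Z) ≤ lam * En (X, Z) := by
    have h4 : En (X', Z') ≤ lam * En (X, Z) := by
      rw [hE', hE, mul_add]
      linarith
    exact h1.trans h4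
  have hE0 : ∑ a, w a * (Wt w (cl D (X a)) - Wt w (X a)) = 0 := by
    rw [hE] at h3
    nlinarith
  -- the sets are out-closed
  have hXcl : ∀ a, cl D (X a) ⊆ X a := by
    intro a x hx
    by_contra hxX
    have h4 := (Finset.sum_eq_zero_iff_of_nonneg (fun a _ =>
      mul_nonneg (hw0 a) (hd0 (X a)))).1 hE0 a (Finset.mem_univ _)
    have h5 : 0 < Wt w (cl D (X a)) - Wt w (X a) := by
      rw [← hdiff]
      exact Finset.sum_pos (fun v _ => hw v) ⟨x, Finset.mem_sdiff.2 ⟨hx, hxX⟩⟩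
    have h6 := mul_pos (hw a) h5
    linarith
  -- a minimal nonempty out-closed set
  obtain ⟨S, ⟨hSne, hScl⟩, hSmin⟩ := Set.exists_min_image
    {S : Finset V | S.Nonempty ∧ ∀ a ∈ S, ∀ x, D.arc a x → x ∈ S} Finset.card (Set.toFinite _)
    ⟨Finset.univ, Finset.univ_nonempty, fun _ _ _ _ => Finset.mem_univ _⟩
  obtain ⟨a, ha⟩ := hSne
  obtain ⟨b, hab⟩ := hout a
  have hb : b ∈ S := hScl a ha b hab
  have hXbS : a ∈ X b := by
    have h4 := hSmin (S ∩ X b) ⟨⟨b, Finset.mem_inter.2 ⟨hb, hX b⟩⟩, by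
      intro c hc x hcx
      obtain ⟨hc1, hc2⟩ := Finset.mem_inter.1 hc
      exact Finset.mem_inter.2 ⟨hScl c hc1 x hcx, hXcl b (mem_cl.2 (Or.inr ⟨c, hc2, hcx⟩))⟩⟩
    have h5 := Finset.eq_of_subset_of_card_le (Finset.inter_subset_left (s₁ := S) (s₂ := X b)) h4
    rw [← h5] at ha
    exact (Finset.mem_inter.1 ha).2
  have h4 := hcomp b a (mem_cl.2 (Or.inl hXbS)) (mem_cl.2 (Or.inr ⟨a, hZ a, hab⟩))
  rw [h4] at hab
  exact D.loopless a hab

/-- Every constant `lam < 1` works, with weights. -/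
theorem lam_lt_one {lam : ℝ} (h0 : 0 ≤ lam) (hl : lam < 1) [Nonempty V] (D : OGraph V)
    (w : V → ℝ) (hw : ∀ v, 0 ≤ w v) :
    ∃ v, lam * ∑ u ∈ N1 D v, w u ≤ ∑ u ∈ N2 D v, w u :=
  snc_of_noNF h0 (fun _ _ _ _ _ h => no_nf hl h) D w hw

/-- The weighted second neighbourhood conjecture. -/
theorem snc_weighted [Nonempty V] (D : OGraph V) (w : V → ℝ) (hw : ∀ v, 0 ≤ w v) :
    ∃ v, ∑ u ∈ N1 D v, w u ≤ ∑ u ∈ N2 D v, w u := by
  classical
  by_contra hcon
  push Not at hcon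
  -- a uniform gap
  obtain ⟨v0, -, hv0⟩ := Finset.exists_min_image (Finset.univ : Finset V)
    (fun v => ∑ u ∈ N1 D v, w u - ∑ u ∈ N2 D v, w u) Finset.univ_nonempty
  set δ := ∑ u ∈ N1 D v0, w u - ∑ u ∈ N2 D v0, w u with hδ
  have hδ0 : 0 < δ := by
    have := hcon v0
    linarith
  set T := ∑ u, w u with hT
  have hT0 : 0 ≤ T := Finset.sum_nonneg fun v _ => hw v
  have hN1T : ∀ v, ∑ u ∈ N1 D v, w u ≤ T := fun v =>
    Finset.sum_le_sum_of_subset_of_nonneg (Finset.subset_univ _) fun u _ _ => hw u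
  have hN20 : ∀ v, 0 ≤ ∑ u ∈ N2 D v, w u := fun v => Finset.sum_nonneg fun u _ => hw u
  have hδT : δ ≤ T := by
    have h1 := hN1T v0
    have h2 := hN20 v0
    linarith
  have hTpos : 0 < T := lt_of_lt_of_le hδ0 hδT
  -- lam = 1 - δ / (2 T)
  have hd : 0 < δ / (2 * T) := by positivity
  have hd1 : δ / (2 * T) ≤ 1 := by
    rw [div_le_one (by positivity)]
    linarith
  obtain ⟨v, hv⟩ := lam_lt_one (lam := 1 - δ / (2 * T)) (by linarith) (by linarith) D w hw
  have h1 := hv0 v (Finset.mem_univ _)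
  have h2 : δ / (2 * T) * ∑ u ∈ N1 D v, w u ≤ δ / (2 * T) * T :=
    mul_le_mul_of_nonneg_left (hN1T v) hd.le
  have h3 : δ / (2 * T) * T = δ / 2 := by
    field_simp
  nlinarith

/-- **Seymour's second neighbourhood conjecture.** -/
theorem snc [Nonempty V] (D : OGraph V) : ∃ v, (N1 D v).card ≤ (N2 D v).card := by
  obtain ⟨v, hv⟩ := snc_weighted D (fun _ => 1) (fun _ => zero_le_one)
  refine ⟨v, ?_⟩
  simp only [Finset.sum_const, nsmul_eq_mul, mul_one] at hv
  exact_mod_cast hv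

end Vale.Agent.P038.H478
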